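import Mathlib

/-!
# A finite minimax lemma

Let `A j ω` be real numbers, `j` and `ω` ranging over finite types, and let `β j` be reals.
If for every nonnegative weighting `lam` of the indices `j` some `ω` satisfies
`∑ j, lam j * A j ω ≤ ∑ j, lam j * β j`, then some probability vector `q` on the `ω` satisfies
`∑ ω, q ω * A j ω ≤ β j` for every `j` simultaneously.  The proof separates the compact convex set
of the vectors `(∑ ω, q ω * (A j ω - β j))_j` from the closed convex cone of the vectors with all
coordinates nonpositive.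
-/

namespace Vale.Agent.Helper1.FiniteMinimax

theorem finite_minimax {Ω J : Type*} [Fintype Ω] [Fintype J] (A : J → Ω → ℝ) (β : J → ℝ)
    (h : ∀ lam : J → ℝ, (∀ j, 0 ≤ lam j) → ∃ ω, ∑ j, lam j * A j ω ≤ ∑ j, lam j * β j) :
    ∃ q : Ω → ℝ, (∀ ω, 0 ≤ q ω) ∧ ∑ ω, q ω = 1 ∧ ∀ j, ∑ ω, q ω * A j ω ≤ β j := by
  classical
  let L : (Ω → ℝ) →ₗ[ℝ] (J → ℝ) :=
    { toFun := fun q j => ∑ ω, q ω * (A j ω - β j)
      map_add' := by
        intro q q'; funext j
        simp [add_mul, Finset.sum_add_distrib]
      map_smul' := by
        intro t q; funext j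
        simp [Finset.mul_sum, mul_assoc] }
  have hLapp : ∀ q j, L q j = ∑ ω, q ω * (A j ω - β j) := fun q j => rfl
  have hLcont : Continuous L := by
    apply continuous_pi; intro j
    exact continuous_finsetSum _ fun ω _ => (continuous_apply ω).mul continuous_const
  set S : Set (J → ℝ) := L '' stdSimplex ℝ Ω with hS
  set T : Set (J → ℝ) := {y | ∀ j, y j ≤ 0} with hT
  have hScomp : IsCompact S := (isCompact_stdSimplex ℝ Ω).image hLcont
  have hSconv : Convex ℝ S := (convex_stdSimplex ℝ Ω).linear_image L
  have hTconv : Convex ℝ T := by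
    intro y hy y' hy' a b ha hb _ j
    have h1 := hy j
    have h2 := hy' j
    simp only [Pi.add_apply, Pi.smul_apply, smul_eq_mul]
    nlinarith
  have hTclosed : IsClosed T := by
    have : T = ⋂ j, {y : J → ℝ | y j ≤ 0} := by
      ext y; simp [hT]
    rw [this]
    exact isClosed_iInter fun j => isClosed_le (continuous_apply j) continuous_const
  by_cases hdisj : Disjoint S T
  · exfalso
    obtain ⟨f, u, v, hfS, huv, hfT⟩ :=
      _root_.geometric_hahn_banach_compact_closed hSconv hScomp hTconv hTclosed hdisj
    have h0 : (0 : J → ℝ) ∈ T := fun j => le_refl _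
    have hv0 : v < 0 := by simpa using hfT 0 h0
    set g : J → ℝ := fun j => f (fun j' => if j = j' then 1 else 0) with hg
    have hfx : ∀ y : J → ℝ, f y = ∑ j, y j * g j := by
      intro y
      have := LinearMap.pi_apply_eq_sum_univ (f : (J → ℝ) →ₗ[ℝ] ℝ) y
      simpa [smul_eq_mul] using this
    have hgle : ∀ j, g j ≤ 0 := by
      intro j
      by_contra hpos
      rw [not_le] at hpos
      set t : ℝ := (-v) / g j + 1 with ht
      have ht0 : 0 < t := by
        have : 0 < (-v) / g j := div_pos (by linarith) hpos
        linarith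
      have hy : (fun j' => if j = j' then -t else 0) ∈ T := by
        intro j'
        show (if j = j' then -t else 0) ≤ 0
        split_ifs <;> linarith
      have h1 := hfT _ hy
      rw [hfx] at h1
      have h2 : ∑ j', (if j = j' then -t else 0) * g j' = -t * g j := by
        simp
      rw [h2] at h1
      have h3 : t * g j = -v + g j := by
        rw [ht, add_mul, div_mul_cancel₀ _ (ne_of_gt hpos), one_mul]
      linarith
    obtain ⟨ω, hω⟩ := h (fun j => - g j) (fun j => by linarith [hgle j])
    have hmem : L (Pi.single ω 1) ∈ S := ⟨_, single_mem_stdSimplex ℝ ω, rfl⟩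
    have hval : ∀ j, L (Pi.single ω 1) j = A j ω - β j := by
      intro j
      rw [hLapp]
      simp [Pi.single_apply]
    have h1 := hfS _ hmem
    rw [hfx] at h1
    have h2 : ∑ j, (A j ω - β j) * g j < 0 := by
      simp only [hval] at h1; linarith
    have h3 : ∑ j, (A j ω - β j) * g j = ∑ j, (-g j) * β j - ∑ j, (-g j) * A j ω := by
      rw [← Finset.sum_sub_distrib]
      exact Finset.sum_congr rfl fun j _ => by ring
    linarith
  · rw [Set.not_disjoint_iff] at hdisj
    obtain ⟨y, ⟨q, hq, rfl⟩, hyT⟩ := hdisj
    refine ⟨q, hq.1, hq.2, fun j => ?_⟩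
    have h1 := hyT j
    have h2 : L q j = ∑ ω, q ω * A j ω - β j := by
      rw [hLapp]
      simp only [mul_sub, Finset.sum_sub_distrib, ← Finset.sum_mul, hq.2, one_mul]
    linarith

end Vale.Agent.Helper1.FiniteMinimax
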