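import Mathlib

/-!
# A deterministic Gram-Schmidt walk with a Bessel budget

Let `x 0, x 1, …` be vectors of a finite-dimensional real inner product space `E` and let
`c k` (`k` in a finite type) be vectors of `E` such that for every `p` and every `f` in the span
of `x p, x (p+1), …` one has `⟪x p, f⟫ ^ 2 ≤ ∑ k, ⟪c k, f⟫ ^ 2`.  Then every finite set `A` of
indices has a signing `ε` with `‖∑ i ∈ A, ε i • x i‖ ^ 2 ≤ ∑ k, ‖c k‖ ^ 2`.

The proof is a deterministic walk in the cube of fractional signs: the smallest fractional index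
is the pivot, the walk moves along the combination of fractional vectors whose image is the
residual of the pivot vector with respect to the span of the other fractional vectors, and the
direction of the move is chosen so that a potential does not increase.  The budget is
`∑ k, ‖P (c k)‖ ^ 2` for `P` the orthogonal projection on the span of the fractional vectors.
-/

namespace Vale.Agent.Helper1.GSWalk

open scoped InnerProductSpace

variable {E : Type*} [NormedAddCommGroup E] [InnerProductSpace ℝ E] [FiniteDimensional ℝ E]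
variable {ι : Type*} [Fintype ι]

/-- The span of the vectors `x i` with `i ∈ A`. -/
def Hs (x : ℕ → E) (A : Finset ℕ) : Submodule ℝ E := Submodule.span ℝ (x '' (A : Set ℕ))

/-- The squared distance of `c` from the span of the `x i`, `i ∈ A`. -/
noncomputable def res2 (x : ℕ → E) (A : Finset ℕ) (c : E) : ℝ :=
  ‖c - (Hs x A).starProjection c‖ ^ 2

/-- The budget of the set `A`: the sum of the squared norms of the projections of the `c k`
on the span of the `x i`, `i ∈ A`. -/
noncomputable def bud (x : ℕ → E) (c : ι → E) (A : Finset ℕ) : ℝ :=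
  ∑ k, (‖c k‖ ^ 2 - res2 x A (c k))

/-- The part of the budget already used by the current pivot. -/
noncomputable def corr (x : ℕ → E) (A : Finset ℕ) (α : ℕ → ℝ) : ℝ :=
  if h : A.Nonempty then (α (A.min' h)) ^ 2 * res2 x (A.erase (A.min' h)) (x (A.min' h)) else 0

omit [FiniteDimensional ℝ E] in
theorem Hs_mono (x : ℕ → E) {A B : Finset ℕ} (h : B ⊆ A) : Hs x B ≤ Hs x A :=
  Submodule.span_mono (Set.image_mono (by exact_mod_cast h))

theorem res2_nonneg (x : ℕ → E) (A : Finset ℕ) (c : E) : 0 ≤ res2 x A c := sq_nonneg _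

theorem res2_anti (x : ℕ → E) {A B : Finset ℕ} (h : B ⊆ A) (c : E) :
    res2 x A c ≤ res2 x B c := by
  unfold res2
  have hle : Hs x B ≤ Hs x A := Hs_mono x h
  set a := c - (Hs x A).starProjection c with ha
  set d := (Hs x A).starProjection c - (Hs x B).starProjection c with hd
  have hdmem : d ∈ Hs x A :=
    (Hs x A).sub_mem (Submodule.starProjection_apply_mem _ _)
      (hle (Submodule.starProjection_apply_mem _ _))
  have horth : ⟪a, d⟫_ℝ = 0 := Submodule.starProjection_inner_eq_zero c d hdmem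
  have h1 : c - (Hs x B).starProjection c = a + d := by rw [ha, hd]; abel
  rw [h1, norm_add_sq_real, horth]
  nlinarith [sq_nonneg ‖d‖]

theorem res2_le (x : ℕ → E) (A : Finset ℕ) (c : E) : res2 x A c ≤ ‖c‖ ^ 2 := by
  unfold res2
  set a := c - (Hs x A).starProjection c with ha
  set d := (Hs x A).starProjection c with hd
  have horth : ⟪a, d⟫_ℝ = 0 :=
    Submodule.starProjection_inner_eq_zero c d (Submodule.starProjection_apply_mem _ _)
  have h1 : c = a + d := by rw [ha]; abel
  have h2 : ‖c‖ ^ 2 = ‖a‖ ^ 2 + ‖d‖ ^ 2 := by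
    conv_lhs => rw [h1]
    rw [norm_add_sq_real, horth]; ring
  nlinarith [sq_nonneg ‖d‖]

theorem bud_nonneg (x : ℕ → E) (c : ι → E) (A : Finset ℕ) : 0 ≤ bud x c A :=
  Finset.sum_nonneg fun k _ => sub_nonneg.mpr (res2_le x A (c k))

theorem bud_le (x : ℕ → E) (c : ι → E) (A : Finset ℕ) : bud x c A ≤ ∑ k, ‖c k‖ ^ 2 :=
  Finset.sum_le_sum fun k _ => by linarith [res2_nonneg x A (c k)]

theorem bud_mono (x : ℕ → E) (c : ι → E) {A B : Finset ℕ} (h : B ⊆ A) :
    bud x c B ≤ bud x c A :=
  Finset.sum_le_sum fun k _ => by linarith [res2_anti x h (c k)]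

theorem corr_nonneg (x : ℕ → E) (A : Finset ℕ) (α : ℕ → ℝ) : 0 ≤ corr x A α := by
  unfold corr
  split_ifs with h
  · exact mul_nonneg (sq_nonneg _) (res2_nonneg _ _ _)
  · exact le_refl _

theorem corr_eq (x : ℕ → E) {A : Finset ℕ} (α : ℕ → ℝ) {p : ℕ} (hp : p ∈ A)
    (hmin : ∀ i ∈ A, p ≤ i) : corr x A α = (α p) ^ 2 * res2 x (A.erase p) (x p) := by
  have hA : A.Nonempty := ⟨p, hp⟩
  have hpe : A.min' hA = p := le_antisymm (Finset.min'_le A p hp) (hmin _ (Finset.min'_mem A hA))
  unfold corr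
  rw [dif_pos hA, hpe]

/-- The Bessel step: removing the smallest index `p` from `A` lowers the budget by at least the
squared residual of `x p` with respect to the other vectors. -/
theorem bud_erase_add (x : ℕ → E) (c : ι → E)
    (hyp : ∀ p, ∀ f ∈ Submodule.span ℝ (x '' {j | p ≤ j}), ⟪x p, f⟫_ℝ ^ 2 ≤ ∑ k, ⟪c k, f⟫_ℝ ^ 2)
    {A : Finset ℕ} {p : ℕ} (hp : p ∈ A) (hmin : ∀ i ∈ A, p ≤ i) :
    bud x c (A.erase p) + res2 x (A.erase p) (x p) ≤ bud x c A := by
  set K := Hs x (A.erase p) with hK
  set r := x p - K.starProjection (x p) with hr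
  have hKle : K ≤ Hs x A := Hs_mono x (Finset.erase_subset p A)
  have hxp : x p ∈ Hs x A := Submodule.subset_span ⟨p, by exact_mod_cast hp, rfl⟩
  have hrA : r ∈ Hs x A :=
    (Hs x A).sub_mem hxp (hKle (Submodule.starProjection_apply_mem _ _))
  have hrK : ∀ w ∈ K, ⟪r, w⟫_ℝ = 0 := fun w hw => Submodule.starProjection_inner_eq_zero (x p) w hw
  have hres : res2 x (A.erase p) (x p) = ‖r‖ ^ 2 := rfl
  -- `⟪x p, r⟫ = ‖r‖ ^ 2`
  have hxr : ⟪x p, r⟫_ℝ = ‖r‖ ^ 2 := by
    have h1 : x p = r + K.starProjection (x p) := by rw [hr]; abel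
    have h2 : ⟪K.starProjection (x p), r⟫_ℝ = 0 := by
      rw [real_inner_comm]; exact hrK _ (Submodule.starProjection_apply_mem _ _)
    conv_lhs => rw [h1]
    rw [inner_add_left, h2, real_inner_self_eq_norm_sq, add_zero]
  -- each `c k` loses at least `⟪c k, r⟫ ^ 2 / ‖r‖ ^ 2`
  have hck : ∀ k, ⟪c k, r⟫_ℝ ^ 2 ≤ (res2 x (A.erase p) (c k) - res2 x A (c k)) * ‖r‖ ^ 2 := by
    intro k
    set e := c k - (Hs x A).starProjection (c k) with he
    set d := (Hs x A).starProjection (c k) - K.starProjection (c k) with hd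
    have hdmem : d ∈ Hs x A :=
      (Hs x A).sub_mem (Submodule.starProjection_apply_mem _ _)
        (hKle (Submodule.starProjection_apply_mem _ _))
    have hed : ⟪e, d⟫_ℝ = 0 := Submodule.starProjection_inner_eq_zero (c k) d hdmem
    have her : ⟪e, r⟫_ℝ = 0 := Submodule.starProjection_inner_eq_zero (c k) r hrA
    have h1 : c k - K.starProjection (c k) = e + d := by rw [he, hd]; abel
    have h2 : res2 x (A.erase p) (c k) - res2 x A (c k) = ‖d‖ ^ 2 := by
      show ‖c k - K.starProjection (c k)‖ ^ 2 - ‖e‖ ^ 2 = ‖d‖ ^ 2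
      rw [h1, norm_add_sq_real, hed]; ring
    have h3 : ⟪d, r⟫_ℝ = ⟪c k, r⟫_ℝ := by
      have h4 : ⟪K.starProjection (c k), r⟫_ℝ = 0 := by
        rw [real_inner_comm]; exact hrK _ (Submodule.starProjection_apply_mem _ _)
      have h5 : d = c k - e - K.starProjection (c k) := by rw [he, hd]; abel
      rw [h5, inner_sub_left, inner_sub_left, her, h4]; ring
    rw [h2, ← h3]
    have := abs_real_inner_le_norm d r
    have h6 : ⟪d, r⟫_ℝ ^ 2 = |⟪d, r⟫_ℝ| ^ 2 := (sq_abs _).symm
    rw [h6, ← mul_pow]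
    exact pow_le_pow_left₀ (abs_nonneg _) this 2
  have hsum : ∑ k, ⟪c k, r⟫_ℝ ^ 2 ≤ (bud x c A - bud x c (A.erase p)) * ‖r‖ ^ 2 := by
    have : bud x c A - bud x c (A.erase p)
        = ∑ k, (res2 x (A.erase p) (c k) - res2 x A (c k)) := by
      unfold bud
      rw [← Finset.sum_sub_distrib]
      exact Finset.sum_congr rfl fun k _ => by ring
    rw [this, Finset.sum_mul]
    exact Finset.sum_le_sum fun k _ => hck k
  have hspan : r ∈ Submodule.span ℝ (x '' {j | p ≤ j}) := by
    refine Submodule.span_mono (Set.image_mono ?_) hrA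
    intro i hi
    exact hmin i (by exact_mod_cast hi)
  have hfour : ‖r‖ ^ 2 * ‖r‖ ^ 2 ≤ (bud x c A - bud x c (A.erase p)) * ‖r‖ ^ 2 := by
    have := hyp p r hspan
    rw [hxr] at this
    calc ‖r‖ ^ 2 * ‖r‖ ^ 2 = (‖r‖ ^ 2) ^ 2 := by ring
      _ ≤ ∑ k, ⟪c k, r⟫_ℝ ^ 2 := this
      _ ≤ _ := hsum
  rw [hres]
  have hmono := bud_mono x c (Finset.erase_subset p A)
  by_cases h0 : ‖r‖ ^ 2 = 0
  · rw [h0]; linarith
  · have hpos : 0 < ‖r‖ ^ 2 := lt_of_le_of_ne (sq_nonneg _) (Ne.symm h0)
    have := le_of_mul_le_mul_right hfour hpos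
    linarith

/-- Moving from a point with all coordinates in `A` strictly inside `[-1, 1]` along a direction
`b` with some nonzero coordinate in `A`, one reaches a point with all coordinates in `[-1, 1]`
and at least one coordinate equal to `1` or `-1`. -/
theorem exists_hit (A : Finset ℕ) (α b : ℕ → ℝ) (hα : ∀ i ∈ A, |α i| < 1) {p : ℕ} (hp : p ∈ A)
    (hb : b p ≠ 0) :
    ∃ τ : ℝ, 0 ≤ τ ∧ (∀ i ∈ A, |α i + τ * b i| ≤ 1) ∧ ∃ i ∈ A, |α i + τ * b i| = 1 := by
  classical
  set h : ℕ → ℝ := fun i => if 0 < b i then (1 - α i) / b i else (-1 - α i) / b i with hh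
  have key : ∀ i ∈ A, b i ≠ 0 →
      0 < h i ∧ (∀ τ, 0 ≤ τ → τ ≤ h i → |α i + τ * b i| ≤ 1) ∧ |α i + h i * b i| = 1 := by
    intro i hi hbi
    have ha := abs_lt.mp (hα i hi)
    rcases lt_or_gt_of_ne hbi with hneg | hpos
    · have hhi : h i = (-1 - α i) / b i := by simp [hh, not_lt.mpr hneg.le]
      rw [hhi]
      refine ⟨div_pos_of_neg_of_neg (by linarith) hneg, ?_, ?_⟩
      · intro τ h0 hτ
        have h1 : (-1 - α i) / b i * b i ≤ τ * b i := mul_le_mul_of_nonpos_right hτ hneg.le
        rw [div_mul_cancel₀ _ hbi] at h1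
        have h2 : τ * b i ≤ 0 := mul_nonpos_of_nonneg_of_nonpos h0 hneg.le
        rw [abs_le]
        constructor <;> linarith
      · rw [div_mul_cancel₀ _ hbi]; norm_num
    · have hhi : h i = (1 - α i) / b i := by simp [hh, hpos]
      rw [hhi]
      refine ⟨div_pos (by linarith) hpos, ?_, ?_⟩
      · intro τ h0 hτ
        have h1 : τ * b i ≤ (1 - α i) / b i * b i := mul_le_mul_of_nonneg_right hτ hpos.le
        rw [div_mul_cancel₀ _ hbi] at h1
        have h2 : 0 ≤ τ * b i := mul_nonneg h0 hpos.le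
        rw [abs_le]
        constructor <;> linarith
      · rw [div_mul_cancel₀ _ hbi]; norm_num
  set S := A.filter (fun i => b i ≠ 0) with hS
  have hSne : S.Nonempty := ⟨p, by simp [hS, hp, hb]⟩
  obtain ⟨i0, hi0, hmin⟩ := S.exists_min_image h hSne
  have hi0A : i0 ∈ A := (Finset.mem_filter.mp hi0).1
  have hbi0 : b i0 ≠ 0 := (Finset.mem_filter.mp hi0).2
  refine ⟨h i0, (key i0 hi0A hbi0).1.le, ?_, i0, hi0A, (key i0 hi0A hbi0).2.2⟩
  intro i hi
  by_cases hbi : b i = 0
  · rw [hbi, mul_zero, add_zero]; exact (hα i hi).le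
  · exact (key i hi hbi).2.1 (h i0) (key i0 hi0A hbi0).1.le
      (hmin i (Finset.mem_filter.mpr ⟨hi, hbi⟩))

/-- **The walk.** From every point `α` whose coordinates in `A` lie strictly inside `[-1, 1]`
there is a signing `ε` of `A` whose squared norm exceeds that of `α` by at most the budget. -/
theorem walk (x : ℕ → E) (c : ι → E)
    (hyp : ∀ p, ∀ f ∈ Submodule.span ℝ (x '' {j | p ≤ j}), ⟪x p, f⟫_ℝ ^ 2 ≤ ∑ k, ⟪c k, f⟫_ℝ ^ 2) :
    ∀ (A : Finset ℕ) (z : E) (α : ℕ → ℝ), (∀ i ∈ A, |α i| < 1) →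
      ∃ ε : ℕ → ℝ, (∀ i ∈ A, ε i = 1 ∨ ε i = -1) ∧
        ‖z + ∑ i ∈ A, ε i • x i‖ ^ 2
          ≤ ‖z + ∑ i ∈ A, α i • x i‖ ^ 2 + bud x c A - corr x A α := by
  classical
  intro A
  induction A using Finset.strongInduction with
  | H A ih =>
    intro z α hα
    by_cases hne : A.Nonempty
    swap
    · rw [Finset.not_nonempty_iff_eq_empty] at hne
      subst hne
      refine ⟨α, by simp, ?_⟩
      have h1 := bud_nonneg x c (∅ : Finset ℕ)
      have h2 : corr x (∅ : Finset ℕ) α = 0 := by simp [corr]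
      simp only [Finset.sum_empty, add_zero]
      linarith
    · set p := A.min' hne with hpdef
      have hpA : p ∈ A := Finset.min'_mem A hne
      have hpmin : ∀ i ∈ A, p ≤ i := fun i hi => Finset.min'_le A i hi
      set K := Hs x (A.erase p) with hK
      set r := x p - K.starProjection (x p) with hr
      have hres : res2 x (A.erase p) (x p) = ‖r‖ ^ 2 := rfl
      obtain ⟨cf, hcf⟩ := (Submodule.mem_span_image_finset_iff_exists_fun' ℝ).mp
        (Submodule.starProjection_apply_mem K (x p))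
      set u : ℕ → ℝ := fun i => if i = p then 1 else - cf i with hu
      have hup : u p = 1 := by simp [hu]
      have hsum_u : ∑ i ∈ A, u i • x i = r := by
        rw [← Finset.add_sum_erase A _ hpA, hup, one_smul]
        have : ∑ i ∈ A.erase p, u i • x i = - ∑ i ∈ A.erase p, cf i • x i := by
          rw [← Finset.sum_neg_distrib]
          refine Finset.sum_congr rfl fun i hi => ?_
          have hip : i ≠ p := Finset.ne_of_mem_erase hi
          simp [hu, hip]
        rw [this, hcf, hr]; abel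
      set y := z + ∑ i ∈ A, α i • x i with hy
      set g := ⟪y, r⟫_ℝ - α p * ‖r‖ ^ 2 with hg
      set s : ℝ := if g ≤ 0 then 1 else -1 with hs
      have hs2 : s * s = 1 := by
        rw [hs]; split_ifs <;> norm_num
      have hsg : s * g ≤ 0 := by
        rw [hs]; split_ifs with h
        · linarith
        · rw [not_le] at h; linarith
      have hs0 : s ≠ 0 := by
        intro h0; rw [h0] at hs2; norm_num at hs2
      obtain ⟨τ, hτ0, hτle, i1, hi1A, hi1⟩ :=
        exists_hit A α (fun i => s * u i) hα hpA (by simpa [hup] using hs0)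
      set α' : ℕ → ℝ := fun i => α i + τ * (s * u i) with hα'
      set A' := A.filter (fun i => |α' i| < 1) with hA'
      set F := A.filter (fun i => ¬ |α' i| < 1) with hF
      have hA'sub : A' ⊆ A := Finset.filter_subset _ _
      have hA'ss : A' ⊂ A := by
        rw [hA', Finset.filter_ssubset]
        exact ⟨i1, hi1A, by
          have : |α' i1| = 1 := hi1
          rw [this]; exact lt_irrefl _⟩
      set z' := z + ∑ i ∈ F, α' i • x i with hz'
      obtain ⟨ε', hε'sign, hε'le⟩ := ih A' hA'ss z' α'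
        (fun i hi => (Finset.mem_filter.mp hi).2)
      set ε : ℕ → ℝ := fun i => if i ∈ A' then ε' i else α' i with hε
      have hsplit : ∀ f : ℕ → ℝ, ∑ i ∈ A, f i • x i
          = ∑ i ∈ A', f i • x i + ∑ i ∈ F, f i • x i := fun f =>
        (Finset.sum_filter_add_sum_filter_not A (fun i => |α' i| < 1) _).symm
      have hεsum : z + ∑ i ∈ A, ε i • x i = z' + ∑ i ∈ A', ε' i • x i := by
        rw [hsplit ε, hz']
        have h1 : ∑ i ∈ A', ε i • x i = ∑ i ∈ A', ε' i • x i :=
          Finset.sum_congr rfl fun i hi => by simp [hε, hi]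
        have h2 : ∑ i ∈ F, ε i • x i = ∑ i ∈ F, α' i • x i :=
          Finset.sum_congr rfl fun i hi => by
            have : i ∉ A' := fun hmem =>
              (Finset.mem_filter.mp hi).2 (Finset.mem_filter.mp hmem).2
            simp [hε, this]
        rw [h1, h2]; abel
      have hα'sum : z' + ∑ i ∈ A', α' i • x i = y + (τ * s) • r := by
        have h1 : z' + ∑ i ∈ A', α' i • x i = z + ∑ i ∈ A, α' i • x i := by
          rw [hsplit α', hz']; abel
        have h2 : ∑ i ∈ A, α' i • x i = ∑ i ∈ A, α i • x i + (τ * s) • ∑ i ∈ A, u i • x i := by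
          rw [Finset.smul_sum, ← Finset.sum_add_distrib]
          refine Finset.sum_congr rfl fun i _ => ?_
          rw [hα', add_smul, smul_smul, mul_assoc]
        rw [h1, h2, hsum_u, hy]; abel
      have hα'p : α' p = α p + τ * s := by simp [hα', hup]
      -- the budget inequality
      have hC : bud x c A' - corr x A' α' ≤ bud x c A - (α' p) ^ 2 * ‖r‖ ^ 2 := by
        by_cases hp' : p ∈ A'
        · rw [corr_eq x α' hp' (fun i hi => hpmin i (hA'sub hi))]
          have h1 := bud_mono x c hA'sub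
          have h2 : res2 x (A.erase p) (x p) ≤ res2 x (A'.erase p) (x p) :=
            res2_anti x (Finset.erase_subset_erase p hA'sub) (x p)
          rw [hres] at h2
          have h3 := mul_le_mul_of_nonneg_left h2 (sq_nonneg (α' p))
          linarith
        · have habs : |α' p| = 1 := by
            have h1 : ¬ |α' p| < 1 := fun h => hp' (Finset.mem_filter.mpr ⟨hpA, h⟩)
            exact le_antisymm (hτle p hpA) (not_lt.mp h1)
          have hsq : (α' p) ^ 2 = 1 := by rw [← sq_abs, habs]; norm_num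
          have hsub : A' ⊆ A.erase p := fun i hi =>
            Finset.mem_erase.mpr ⟨fun h => hp' (h ▸ hi), hA'sub hi⟩
          have h1 := bud_mono x c hsub
          have h2 := bud_erase_add x c hyp hpA hpmin
          have h3 := corr_nonneg x A' α'
          rw [hres] at h2
          rw [hsq]; linarith
      refine ⟨ε, ?_, ?_⟩
      · intro i hi
        by_cases hiA' : i ∈ A'
        · simpa [hε, hiA'] using hε'sign i hiA'
        · have h1 : ¬ |α' i| < 1 := fun h => hiA' (Finset.mem_filter.mpr ⟨hi, h⟩)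
          have h2 : |α' i| = 1 := le_antisymm (hτle i hi) (not_lt.mp h1)
          have h3 : α' i = 1 ∨ α' i = -1 := (abs_eq (by norm_num)).mp h2
          simpa [hε, hiA'] using h3
      · rw [hεsum]
        rw [hα'sum] at hε'le
        rw [corr_eq x α hpA hpmin, hres]
        have hexp : ‖y + (τ * s) • r‖ ^ 2
            = ‖y‖ ^ 2 + 2 * (τ * s) * ⟪y, r⟫_ℝ + τ ^ 2 * ‖r‖ ^ 2 := by
          rw [norm_add_sq_real, inner_smul_right, norm_smul, mul_pow, Real.norm_eq_abs, sq_abs]
          have : (τ * s) ^ 2 = τ ^ 2 := by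
            rw [mul_pow, sq s, hs2, mul_one]
          rw [this]; ring
        rw [hexp] at hε'le
        rw [hα'p] at hC
        have hfin : 2 * τ * (s * g) ≤ 0 :=
          mul_nonpos_of_nonneg_of_nonpos (by linarith) hsg
        have hsq : (α p + τ * s) ^ 2 = (α p) ^ 2 + 2 * α p * τ * s + τ ^ 2 := by
          have : (τ * s) ^ 2 = τ ^ 2 := by rw [mul_pow, sq s, hs2, mul_one]
          calc (α p + τ * s) ^ 2 = (α p) ^ 2 + 2 * α p * τ * s + (τ * s) ^ 2 := by ring
            _ = _ := by rw [this]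
        rw [hsq] at hC
        rw [hg] at hfin
        nlinarith

/-- **Signing within the budget.** Under the hypothesis relating the `x i` and the `c k`, every
finite set `A` of indices has a signing whose signed sum has squared norm at most
`∑ k, ‖c k‖ ^ 2`. -/
theorem exists_signing (x : ℕ → E) (c : ι → E)
    (hyp : ∀ p, ∀ f ∈ Submodule.span ℝ (x '' {j | p ≤ j}), ⟪x p, f⟫_ℝ ^ 2 ≤ ∑ k, ⟪c k, f⟫_ℝ ^ 2)
    (A : Finset ℕ) :
    ∃ ε : ℕ → ℝ, (∀ i, ε i = 1 ∨ ε i = -1) ∧
      ‖∑ i ∈ A, ε i • x i‖ ^ 2 ≤ ∑ k, ‖c k‖ ^ 2 := by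
  classical
  obtain ⟨ε, hε, hle⟩ := walk x c hyp A 0 (fun _ => 0) (fun i _ => by simp)
  refine ⟨fun i => if i ∈ A then ε i else 1, ?_, ?_⟩
  · intro i
    by_cases hi : i ∈ A
    · simpa [hi] using hε i hi
    · simp [hi]
  · have h1 : ∑ i ∈ A, (if i ∈ A then ε i else 1) • x i = ∑ i ∈ A, ε i • x i :=
      Finset.sum_congr rfl fun i hi => by simp [hi]
    rw [h1]
    have h2 := bud_le x c A
    have h3 := corr_nonneg x A (fun _ => 0)
    simp only [zero_smul, Finset.sum_const_zero, add_zero, norm_zero, zero_add] at hle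
    have h4 : (0 : ℝ) ^ 2 = 0 := by norm_num
    linarith

end Vale.Agent.Helper1.GSWalk
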