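import Mathlib
import Vale.Agent.Helper8.KK.Defs
import Vale.Agent.Helper23.KKPairs

/-!
P064 plumbing (requested by helper8): the number of copies of a graph `G` in the
complete graph on `Fin n` is at most `n ^ |τ|` whenever all edges of `G` lie
inside the vertex set `τ`.
-/

namespace Vale.Agent.Helper8.KK

open Finset SimpleGraph

/-- Two injective self-maps of `Fin n` that agree on a set containing all edges of `G`
give the same pair (vertex set, edge set). -/
lemma pr_congr_of_agree {n : ℕ} (G : SimpleGraph (Fin n)) (τ : Finset (Fin n))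
    (hG : ∀ a b, G.Adj a b → a ∈ τ ∧ b ∈ τ) (f g : Fin n → Fin n)
    (hf : Function.Injective f) (hg : Function.Injective g)
    (hfg : ∀ a ∈ τ, f a = g a) : pr G f = pr G g := by
  classical
  unfold pr
  refine Prod.ext ?_ ?_
  · show (Finset.univ : Finset (Fin n)).image f = (Finset.univ : Finset (Fin n)).image g
    rw [Finset.image_univ_of_surjective (Finite.surjective_of_injective hf),
      Finset.image_univ_of_surjective (Finite.surjective_of_injective hg)]
  · show G.edgeFinset.image (Sym2.map f) = G.edgeFinset.image (Sym2.map g)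
    refine Finset.image_congr ?_
    intro e he
    induction e using Sym2.ind with
    | _ a b =>
      have hab : G.Adj a b := by
        have := Finset.mem_coe.mp he
        simpa using this
      obtain ⟨ha, hb⟩ := hG a b hab
      show Sym2.map f s(a, b) = Sym2.map g s(a, b)
      rw [Sym2.map_mk, Sym2.map_mk, hfg a ha, hfg b hb]

/-- The number of copies of `G` in the complete graph is at most `n ^ |τ|` when all
edges of `G` lie inside `τ`. -/
theorem copyCount_top_le_pow {n : ℕ} (G : SimpleGraph (Fin n)) (τ : Finset (Fin n))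
    (hG : ∀ a b, G.Adj a b → a ∈ τ ∧ b ∈ τ) :
    (⊤ : SimpleGraph (Fin n)).copyCount G ≤ n ^ τ.card := by
  classical
  refine (copyCount_le_card_pairs _ _).trans ?_
  have hmem : ∀ x ∈ pairs (⊤ : SimpleGraph (Fin n)) G,
      ∃ f : Fin n → Fin n, Function.Injective f ∧ pr G f = x := by
    intro x hx
    unfold pairs at hx
    simp only [Finset.mem_image, Finset.mem_filter, Finset.mem_univ, true_and] at hx
    obtain ⟨f, ⟨hf, _⟩, rfl⟩ := hx
    exact ⟨f, hf, rfl⟩
  have : Nonempty (Fin n → Fin n) := ⟨id⟩
  choose! φ hφinj hφpr using hmem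
  have hcard : (pairs (⊤ : SimpleGraph (Fin n)) G).card ≤
      (Finset.univ : Finset (τ → Fin n)).card := by
    refine Finset.card_le_card_of_injOn (fun x => fun a : τ => φ x a)
      (fun _ _ => Finset.mem_coe.mpr (Finset.mem_univ _)) ?_
    intro x hx y hy hxy
    have hx' := Finset.mem_coe.mp hx
    have hy' := Finset.mem_coe.mp hy
    rw [← hφpr x hx', ← hφpr y hy']
    refine pr_congr_of_agree G τ hG _ _ (hφinj x hx') (hφinj y hy') ?_
    intro a ha
    exact congrFun hxy ⟨a, ha⟩
  refine hcard.trans ?_
  rw [Finset.card_univ, Fintype.card_fun, Fintype.card_coe, Fintype.card_fin]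

end Vale.Agent.Helper8.KK
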