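import Vale.Agent.Helper13.KTVLiteralPM
import Vale.Agent.Helper13.SwitchDefs
import Vale.Agent.Helper1.KTVLiteralUnique

/-!
Piece L3 (second copy, written in parallel) of the literal form of the switch chain of P335: a moving step of the
literal chain is a switch, and every switch is a step of the literal chain.
-/

namespace Vale.Agent.Helper1.KTVLiteralStepB

open Classical
open Vale.Agent.Lead.KTVLiteral Vale.Agent.Helper13.Switch Vale.Agent.Helper13.KTVLiteralPM
open Vale.Agent.Helper1.KTVLiteralUnique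

variable {n : ℕ}

/-- When its condition holds, the step deletes `F` and inserts `F'`. -/
theorem step_eq_of_cond (G : SimpleGraph (Fin n)) (F F' : Finset (Sym2 (Fin n)))
    (hc : (∀ e ∈ F, e ∈ G.edgeSet) ∧ (∀ e ∈ F', e ∉ G.edgeSet)) :
    step G F F' = G.deleteEdges (F : Set (Sym2 (Fin n))) ⊔
      SimpleGraph.fromEdgeSet (F' : Set (Sym2 (Fin n))) := by
  unfold step
  rw [if_pos hc]
  ext x y
  simp only [SimpleGraph.fromEdgeSet_adj, SimpleGraph.sup_adj, SimpleGraph.deleteEdges_adj,
    Set.mem_union, Set.mem_sdiff, SimpleGraph.mem_edgeSet, Finset.mem_coe]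
  constructor
  · rintro ⟨h | h, hxy⟩
    · exact Or.inl h
    · exact Or.inr ⟨h, hxy⟩
  · rintro (h | h)
    · exact ⟨Or.inl h, h.1.ne⟩
    · exact ⟨Or.inr h.1, h.2⟩

/-- The core case: deleting `ab, ce` and inserting `ac, be`. -/
theorem core {a b c e : Fin n} (hab : a ≠ b) (hac : a ≠ c) (hae : a ≠ e) (hbc : b ≠ c)
    (hbe : b ≠ e) (hce : c ≠ e) (G : SimpleGraph (Fin n))
    (hmove : step G {s(a, b), s(c, e)} {s(a, c), s(b, e)} ≠ G) :
    IsSwitch G (step G {s(a, b), s(c, e)} {s(a, c), s(b, e)}) := by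
  have hc := cond_of_step_ne G hmove
  refine ⟨a, b, c, e, hab, hac, hae, hbc, hbe, hce, ⟨?_, ?_, ?_, ?_⟩, ?_⟩
  · exact (SimpleGraph.mem_edgeSet G).mp (hc.1 _ (by simp))
  · exact (SimpleGraph.mem_edgeSet G).mp (hc.1 _ (by simp))
  · exact fun h => hc.2 s(a, c) (by simp) ((SimpleGraph.mem_edgeSet G).mpr h)
  · exact fun h => hc.2 s(b, e) (by simp) ((SimpleGraph.mem_edgeSet G).mpr h)
  · rw [step_eq_of_cond G _ _ hc]
    unfold switchGraph
    simp only [Finset.coe_insert, Finset.coe_singleton]

/-- [L3a] A moving step of the literal chain is a switch. -/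
theorem step_isSwitch {S : Finset (Fin n)} (hS : S.card = 4) {F F' : Finset (Sym2 (Fin n))}
    (hF : PM S F) (hF' : PM S F') (hne : F ≠ F') (G : SimpleGraph (Fin n))
    (hmove : step G F F' ≠ G) : IsSwitch G (step G F F') := by
  obtain ⟨a, haS⟩ : S.Nonempty := by
    rw [← Finset.card_pos]; omega
  have h3 : (S.erase a).card = 3 := by
    rw [Finset.card_erase_of_mem haS]; omega
  obtain ⟨b, c, e, hbc, hbe, hce, hbce⟩ := Finset.card_eq_three.mp h3
  have hb : b ∈ S.erase a := by rw [hbce]; simp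
  have hc : c ∈ S.erase a := by rw [hbce]; simp
  have he : e ∈ S.erase a := by rw [hbce]; simp
  have hab : a ≠ b := (Finset.ne_of_mem_erase hb).symm
  have hac : a ≠ c := (Finset.ne_of_mem_erase hc).symm
  have hae : a ≠ e := (Finset.ne_of_mem_erase he).symm
  have hSeq : S = {a, b, c, e} := by
    rw [← Finset.insert_erase haS, hbce]
  have e1 : ({s(a, b), s(c, e)} : Finset (Sym2 (Fin n))) = {s(a, b), s(e, c)} := by
    rw [Sym2.eq_swap (a := c)]
  have e2 : ({s(a, c), s(b, e)} : Finset (Sym2 (Fin n))) = {s(a, c), s(e, b)} := by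
    rw [Sym2.eq_swap (a := b)]
  have e3 : ({s(a, e), s(b, c)} : Finset (Sym2 (Fin n))) = {s(a, e), s(c, b)} := by
    rw [Sym2.eq_swap (a := b)]
  rcases (pm_iff hSeq hab hac hae hbc hbe hce F).mp hF with rfl | rfl | rfl <;>
    rcases (pm_iff hSeq hab hac hae hbc hbe hce F').mp hF' with rfl | rfl | rfl
  · exact absurd rfl hne
  · exact core hab hac hae hbc hbe hce G hmove
  · rw [e1] at hmove ⊢
    exact core hab hae hac hbe hbc hce.symm G hmove
  · exact core hac hab hae hbc.symm hce hbe G hmove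
  · exact absurd rfl hne
  · rw [e2, e3] at hmove ⊢
    exact core hac hae hab hce hbc.symm hbe.symm G hmove
  · rw [e1] at hmove ⊢
    exact core hae hab hac hbe.symm hce.symm hbc G hmove
  · rw [e3, e2] at hmove ⊢
    exact core hae hac hab hce.symm hbe.symm hbc.symm G hmove
  · exact absurd rfl hne

/-- [L3b] Every switch is a step of the literal chain. -/
theorem isSwitch_step (G G' : SimpleGraph (Fin n)) (h : IsSwitch G G') :
    ∃ (S : Finset (Fin n)) (F F' : Finset (Sym2 (Fin n))),
      S.card = 4 ∧ PM S F ∧ PM S F' ∧ F ≠ F' ∧ step G F F' = G' := by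
  obtain ⟨a, b, c, e, hab, hac, hae, hbc, hbe, hce, ⟨h1, h2, h3, h4⟩, rfl⟩ := h
  refine ⟨{a, b, c, e}, {s(a, b), s(c, e)}, {s(a, c), s(b, e)}, ?_, ?_, ?_, ?_, ?_⟩
  · rw [Finset.card_insert_of_notMem (by simp [hab, hac, hae]),
      Finset.card_insert_of_notMem (by simp [hbc, hbe]),
      Finset.card_insert_of_notMem (by simp [hce]), Finset.card_singleton]
  · exact pm_mk rfl hab hac hae hbc hbe hce
  · refine pm_mk ?_ hac hab hae hbc.symm hce hbe
    ext x
    simp only [Finset.mem_insert, Finset.mem_singleton]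
    tauto
  · intro hFF
    have : s(a, b) ∈ ({s(a, c), s(b, e)} : Finset (Sym2 (Fin n))) := by
      rw [← hFF]; simp
    simp only [Finset.mem_insert, Finset.mem_singleton, Sym2.eq_iff] at this
    rcases this with (⟨-, h⟩ | ⟨h, -⟩) | (⟨h, -⟩ | ⟨h, -⟩)
    · exact hbc h
    · exact hac h
    · exact hab h
    · exact hae h
  · have hc : (∀ f ∈ ({s(a, b), s(c, e)} : Finset (Sym2 (Fin n))), f ∈ G.edgeSet) ∧
        (∀ f ∈ ({s(a, c), s(b, e)} : Finset (Sym2 (Fin n))), f ∉ G.edgeSet) := by
      constructor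
      · intro f hf
        simp only [Finset.mem_insert, Finset.mem_singleton] at hf
        rcases hf with rfl | rfl
        · exact (SimpleGraph.mem_edgeSet G).mpr h1
        · exact (SimpleGraph.mem_edgeSet G).mpr h2
      · intro f hf
        simp only [Finset.mem_insert, Finset.mem_singleton] at hf
        rcases hf with rfl | rfl
        · exact fun h => h3 ((SimpleGraph.mem_edgeSet G).mp h)
        · exact fun h => h4 ((SimpleGraph.mem_edgeSet G).mp h)
    rw [step_eq_of_cond G _ _ hc]
    unfold switchGraph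
    simp only [Finset.coe_insert, Finset.coe_singleton]

end Vale.Agent.Helper1.KTVLiteralStepB
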