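import Mathlib
import Vale.Agent.Helper1.GSWalk

/-!
# Balancing all initial partial sums against finitely many linear tests

For every sequence `v 0, v 1, …` in the Euclidean unit ball of `ℝ^d` and every finite family of
tests, a test being a vector `b j` of `ℝ^d` together with a length `κ j`, there are signs `ε` with

`∑ j, ⟪b j, ∑ i < κ j, ε i • v i⟫ ^ 2 ≤ ∑ j, ‖b j‖ ^ 2`.
-/

namespace Vale.Agent.Helper1.PrefixTests

open scoped InnerProductSpace
open Vale.Agent.Helper1.GSWalk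

theorem sum_apply_aux {ι κ : Type*} [Fintype ι] (β : ι → Type*)
    [∀ i, SeminormedAddCommGroup (β i)] (s : Finset κ) (f : κ → PiLp 2 β) (i : ι) :
    (∑ a ∈ s, f a) i = ∑ a ∈ s, f a i := by
  classical
  induction s using Finset.induction_on with
  | empty => simp
  | insert a s ha ih => rw [Finset.sum_insert ha, Finset.sum_insert ha, PiLp.add_apply, ih]

theorem real_inner_pi {ι : Type*} [Fintype ι] (a b : EuclideanSpace ℝ ι) :
    ⟪a, b⟫_ℝ = ∑ j, a j * b j := by
  rw [PiLp.inner_apply]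
  exact Finset.sum_congr rfl fun j _ => by simp [mul_comm]

/-- **Linear tests of the initial partial sums.** -/
theorem prefix_tests {ι : Type*} [Fintype ι] (d : ℕ) (v : ℕ → EuclideanSpace ℝ (Fin d))
    (hv : ∀ i, ‖v i‖ ≤ 1) (b : ι → EuclideanSpace ℝ (Fin d)) (κ : ι → ℕ) :
    ∃ ε : ℕ → ℝ, (∀ i, ε i = 1 ∨ ε i = -1) ∧
      ∑ j, ⟪b j, ∑ i ∈ Finset.range (κ j), ε i • v i⟫_ℝ ^ 2 ≤ ∑ j, ‖b j‖ ^ 2 := by
  classical
  set x : ℕ → EuclideanSpace ℝ ι := fun i => WithLp.toLp 2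
    (fun j : ι => if i < κ j then ⟪b j, v i⟫_ℝ else 0) with hx
  set c : Fin d → EuclideanSpace ℝ ι := fun l => WithLp.toLp 2 (fun j : ι => (b j) l) with hc
  have hxj : ∀ i j, x i j = if i < κ j then ⟪b j, v i⟫_ℝ else 0 := fun i j => rfl
  have hcj : ∀ l j, c l j = (b j) l := fun l j => rfl
  have hyp : ∀ p, ∀ f ∈ Submodule.span ℝ (x '' {j | p ≤ j}),
      ⟪x p, f⟫_ℝ ^ 2 ≤ ∑ k, ⟪c k, f⟫_ℝ ^ 2 := by
    intro p f hf
    have hzero : ∀ j : ι, κ j ≤ p → f j = 0 := by
      refine Submodule.span_induction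
        (p := fun f _ => ∀ j : ι, κ j ≤ p → f j = 0) ?_ ?_ ?_ ?_ hf
      · rintro _ ⟨q, hq, rfl⟩ j hj
        have hpq : p ≤ q := hq
        have : ¬ q < κ j := by omega
        rw [hxj, if_neg this]
      · intro j _; rfl
      · intro a a' _ _ ha ha' j hj
        rw [PiLp.add_apply, ha j hj, ha' j hj, add_zero]
      · intro t a _ ha j hj
        rw [PiLp.smul_apply, ha j hj, smul_zero]
    set F : EuclideanSpace ℝ (Fin d) := ∑ j, f j • b j with hF
    have h1 : ⟪x p, f⟫_ℝ = ⟪F, v p⟫_ℝ := by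
      rw [real_inner_pi, hF, sum_inner]
      refine Finset.sum_congr rfl fun j _ => ?_
      rw [hxj, inner_smul_left]
      split_ifs with h
      · simp [mul_comm]
      · rw [hzero j (not_lt.mp h)]; simp
    have h2 : ∀ l, ⟪c l, f⟫_ℝ = F l := by
      intro l
      rw [real_inner_pi, hF, sum_apply_aux]
      refine Finset.sum_congr rfl fun j _ => ?_
      rw [hcj, PiLp.smul_apply, smul_eq_mul, mul_comm]
    have hF2 : ‖F‖ ^ 2 = ∑ l, (F l) ^ 2 := EuclideanSpace.real_norm_sq_eq F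
    calc ⟪x p, f⟫_ℝ ^ 2 = ⟪F, v p⟫_ℝ ^ 2 := by rw [h1]
      _ ≤ (‖F‖ * ‖v p‖) ^ 2 := by
          have := abs_real_inner_le_norm F (v p)
          rw [← sq_abs]; exact pow_le_pow_left₀ (abs_nonneg _) this 2
      _ ≤ ‖F‖ ^ 2 := by
          rw [mul_pow]
          have h3 := hv p
          have h4 := norm_nonneg (v p)
          have h5 : ‖v p‖ ^ 2 ≤ 1 := by nlinarith
          nlinarith [sq_nonneg ‖F‖]
      _ = ∑ l, ⟪c l, f⟫_ℝ ^ 2 := by
          rw [hF2]; exact Finset.sum_congr rfl fun l _ => by rw [h2]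
  set M : ℕ := Finset.univ.sup κ with hM
  obtain ⟨ε, hε, hle⟩ := exists_signing x c hyp (Finset.range M)
  refine ⟨ε, hε, ?_⟩
  have hL : ‖∑ i ∈ Finset.range M, ε i • x i‖ ^ 2
      = ∑ j, ⟪b j, ∑ i ∈ Finset.range (κ j), ε i • v i⟫_ℝ ^ 2 := by
    rw [EuclideanSpace.real_norm_sq_eq]
    refine Finset.sum_congr rfl fun j _ => ?_
    have hj : κ j ≤ M := Finset.le_sup (Finset.mem_univ j)
    have hcoord : (∑ i ∈ Finset.range M, ε i • x i) j
        = ⟪b j, ∑ i ∈ Finset.range (κ j), ε i • v i⟫_ℝ := by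
      rw [sum_apply_aux, inner_sum]
      have h1 : ∀ i ∈ Finset.range M, (ε i • x i) j
          = if i < κ j then ⟪b j, ε i • v i⟫_ℝ else 0 := by
        intro i _
        rw [PiLp.smul_apply, hxj]
        split_ifs
        · rw [inner_smul_right, smul_eq_mul]
        · rw [smul_zero]
      rw [Finset.sum_congr rfl h1, ← Finset.sum_filter]
      have h2 : (Finset.range M).filter (fun i => i < κ j) = Finset.range (κ j) := by
        ext i; simp only [Finset.mem_filter, Finset.mem_range]; omega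
      rw [h2]
    rw [hcoord]
  have hR : ∑ l, ‖c l‖ ^ 2 = ∑ j, ‖b j‖ ^ 2 := by
    have h1 : ∀ l, ‖c l‖ ^ 2 = ∑ j, ((b j) l) ^ 2 := by
      intro l
      rw [EuclideanSpace.real_norm_sq_eq]
    rw [Finset.sum_congr rfl fun l _ => h1 l, Finset.sum_comm]
    exact Finset.sum_congr rfl fun j _ => (EuclideanSpace.real_norm_sq_eq (b j)).symm
  rw [← hL, ← hR]
  exact hle

end Vale.Agent.Helper1.PrefixTests
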