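import Mathlib

/-!
# From signs to rearrangements, in mean square

For a finite list `L` of vectors with sum `0` and a sign sequence `ε`, the list obtained by
putting the vectors with sign `1` in their order, followed by the vectors with sign `-1` in
reverse order, has sum of squared norms of partial sums at most the average of that sum for `L`
and of the sum of squared norms of the signed partial sums of `L`.  Hence a rearrangement of `L`
minimising the sum of squared norms of its partial sums is at least as good as any signing of it.
-/

namespace Vale.Agent.Helper1.Reorder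

variable {E : Type*} [NormedAddCommGroup E] [InnerProductSpace ℝ E]

/-- `cost s L = ∑_{k=0}^{|L|} ‖s + (sum of the first k terms of L)‖²`. -/
def cost : E → List E → ℝ
  | s, [] => ‖s‖ ^ 2
  | s, x :: L => ‖s‖ ^ 2 + cost (s + x) L

/-- `scost ε t L = ∑_{k=0}^{|L|} ‖t + ∑_{i<k} ε i • L i‖²`. -/
def scost : (ℕ → ℝ) → E → List E → ℝ
  | _, t, [] => ‖t‖ ^ 2
  | ε, t, x :: L => ‖t‖ ^ 2 + scost (fun i => ε (i + 1)) (t + ε 0 • x) L

/-- The rearrangement: vectors with sign `1` in order, then the others in reverse order. -/
noncomputable def newOrder : (ℕ → ℝ) → List E → List E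
  | _, [] => []
  | ε, x :: L =>
      if ε 0 = 1 then x :: newOrder (fun i => ε (i + 1)) L
      else newOrder (fun i => ε (i + 1)) L ++ [x]

/-- Sum over `j = 0, …, |L|` of `‖A_j‖² + ‖B_j‖²`, where `A_j`, `B_j` are `a`, `b` plus the sums
of the vectors among the first `j` with sign `1`, respectively with another sign. -/
noncomputable def fcost : (ℕ → ℝ) → E → E → List E → ℝ
  | _, a, b, [] => ‖a‖ ^ 2 + ‖b‖ ^ 2
  | ε, a, b, x :: L =>
      ‖a‖ ^ 2 + ‖b‖ ^ 2 +
        (if ε 0 = 1 then fcost (fun i => ε (i + 1)) (a + x) b L
         else fcost (fun i => ε (i + 1)) a (b + x) L)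

omit [NormedAddCommGroup E] [InnerProductSpace ℝ E] in
theorem newOrder_perm : ∀ (L : List E) (ε : ℕ → ℝ), (newOrder ε L).Perm L
  | [], _ => by simp [newOrder]
  | x :: L, ε => by
      unfold newOrder
      split_ifs
      · exact (newOrder_perm L _).cons x
      · exact (List.perm_append_singleton x _).trans ((newOrder_perm L _).cons x)

omit [InnerProductSpace ℝ E] in
theorem cost_append_singleton (x : E) : ∀ (R : List E) (s : E),
    cost s (R ++ [x]) = cost s R + ‖s + R.sum + x‖ ^ 2
  | [], s => by simp [cost]
  | y :: R, s => by
      simp only [List.cons_append, cost, List.sum_cons]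
      rw [cost_append_singleton x R (s + y)]
      rw [show s + y + R.sum + x = s + (y + R.sum) + x by abel]
      ring

omit [InnerProductSpace ℝ E] in
theorem cost_newOrder_le : ∀ (L : List E) (ε : ℕ → ℝ) (a b : E), a + b + L.sum = 0 →
    cost a (newOrder ε L) ≤ fcost ε a b L
  | [], ε, a, b, _ => by
      simp only [newOrder, cost, fcost]
      nlinarith [sq_nonneg ‖b‖]
  | x :: L, ε, a, b, h => by
      rw [List.sum_cons] at h
      unfold newOrder fcost
      split_ifs with hε
      · have := cost_newOrder_le L (fun i => ε (i + 1)) (a + x) b (by rw [← h]; abel)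
        simp only [cost]
        nlinarith [sq_nonneg ‖b‖]
      · have := cost_newOrder_le L (fun i => ε (i + 1)) a (b + x) (by rw [← h]; abel)
        rw [cost_append_singleton]
        have hs : (newOrder (fun i => ε (i + 1)) L).sum = L.sum := (newOrder_perm L _).sum_eq
        have hb : a + (newOrder (fun i => ε (i + 1)) L).sum + x = -b := by
          rw [hs, eq_neg_iff_add_eq_zero, ← h]; abel
        rw [hb, norm_neg]
        nlinarith [sq_nonneg ‖a‖]

theorem fcost_eq : ∀ (L : List E) (ε : ℕ → ℝ), (∀ i, ε i = 1 ∨ ε i = -1) → ∀ a b : E,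
    fcost ε a b L = (cost (a + b) L + scost ε (a - b) L) / 2
  | [], ε, _, a, b => by
      simp only [fcost, cost, scost]
      have := parallelogram_law_with_norm ℝ a b
      linarith
  | x :: L, ε, hε, a, b => by
      have hε' : ∀ i, (fun i => ε (i + 1)) i = 1 ∨ (fun i => ε (i + 1)) i = -1 :=
        fun i => hε (i + 1)
      have hp := parallelogram_law_with_norm ℝ a b
      unfold fcost
      simp only [cost, scost]
      split_ifs with h0
      · rw [fcost_eq L _ hε' (a + x) b, h0, one_smul]
        rw [show a + x + b = a + b + x by abel, show a + x - b = a - b + x by abel]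
        linarith
      · have h1 : ε 0 = -1 := by
          rcases hε 0 with h | h
          · exact absurd h h0
          · exact h
        rw [fcost_eq L _ hε' a (b + x), h1, neg_one_smul]
        rw [show a + (b + x) = a + b + x by abel, show a - (b + x) = a - b + -x by abel]
        linarith

omit [InnerProductSpace ℝ E] in
theorem cost_eq_sum : ∀ (L : List E) (s : E),
    cost s L = ∑ k ∈ Finset.range (L.length + 1), ‖s + (L.take k).sum‖ ^ 2
  | [], s => by simp [cost]
  | x :: L, s => by
      rw [cost, cost_eq_sum L (s + x), List.length_cons, Finset.sum_range_succ' _ (L.length + 1)]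
      simp only [List.take_succ_cons, List.sum_cons, List.take_zero, List.sum_nil, add_zero]
      rw [add_comm]
      congr 1
      exact Finset.sum_congr rfl fun k _ => by rw [add_assoc]

theorem scost_eq_sum : ∀ (L : List E) (ε : ℕ → ℝ) (t : E),
    scost ε t L
      = ∑ k ∈ Finset.range (L.length + 1), ‖t + ∑ i ∈ Finset.range k, ε i • L.getD i 0‖ ^ 2
  | [], ε, t => by simp [scost]
  | x :: L, ε, t => by
      rw [scost, scost_eq_sum L _ (t + ε 0 • x), List.length_cons,
        Finset.sum_range_succ' _ (L.length + 1)]
      simp only [Finset.range_zero, Finset.sum_empty, add_zero]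
      rw [add_comm]
      congr 1
      refine Finset.sum_congr rfl fun k _ => ?_
      rw [Finset.sum_range_succ' _ k]
      simp only [List.getD_cons_succ, List.getD_cons_zero]
      rw [show t + ε 0 • x + ∑ i ∈ Finset.range k, ε (i + 1) • L.getD i 0
        = t + (∑ i ∈ Finset.range k, ε (i + 1) • L.getD i 0 + ε 0 • x) by abel]

/-- **Transfer from signs to rearrangements.** If `L` minimises, among its rearrangements, the
sum of squared norms of partial sums, and `L` has sum `0`, then that sum is at most the sum of
squared norms of the signed partial sums of `L`, for every sign sequence. -/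
theorem cost_le_scost_of_min (L : List E) (hsum : L.sum = 0)
    (hmin : ∀ R : List E, R.Perm L → cost 0 L ≤ cost 0 R) (ε : ℕ → ℝ)
    (hε : ∀ i, ε i = 1 ∨ ε i = -1) : cost 0 L ≤ scost ε 0 L := by
  have h1 := hmin _ (newOrder_perm L ε)
  have h2 := cost_newOrder_le L ε 0 0 (by rw [hsum]; simp)
  have h3 := fcost_eq L ε hε 0 0
  simp only [add_zero, sub_zero] at h3
  linarith

omit [InnerProductSpace ℝ E] in
/-- A rearrangement minimising the sum of squared norms of partial sums exists. -/
theorem exists_min (L : List E) :
    ∃ L₀ : List E, L₀.Perm L ∧ ∀ R : List E, R.Perm L → cost 0 L₀ ≤ cost 0 R := by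
  have hfin : {R : List E | R ∈ L.permutations}.Finite := List.finite_toSet _
  obtain ⟨L₀, hL₀, hmin⟩ := Set.exists_min_image _ (cost (0 : E)) hfin
    ⟨L, List.mem_permutations.mpr (List.Perm.refl L)⟩
  exact ⟨L₀, List.mem_permutations.mp hL₀, fun R hR => hmin R (List.mem_permutations.mpr hR)⟩

end Vale.Agent.Helper1.Reorder
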