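import Mathlib

/-!
# Two extremal families for the mean-square statements

* `basis_example`: for the standard basis of `ℝ^d` every signing has `‖∑_{i<d} ε i • v i‖ ^ 2 = d`.
* `simplex_example`: for `d ≥ 1` the `d` vectors `e_j - (1/d) (e_1 + … + e_d)` lie in the unit
  ball, have sum `0`, and every rearrangement of them has sum of squared norms of partial sums
  equal to `(d ^ 2 - 1) / 6`.
-/

namespace Vale.Agent.Helper1.SharpExamples

open scoped InnerProductSpace

theorem real_inner_pi {ι : Type*} [Fintype ι] (a b : EuclideanSpace ℝ ι) :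
    ⟪a, b⟫_ℝ = ∑ j, a j * b j := by
  rw [PiLp.inner_apply]
  exact Finset.sum_congr rfl fun j _ => by simp [mul_comm]

theorem sum_apply_aux {ι κ : Type*} [Fintype ι] (β : ι → Type*)
    [∀ i, SeminormedAddCommGroup (β i)] (s : Finset κ) (f : κ → PiLp 2 β) (i : ι) :
    (∑ a ∈ s, f a) i = ∑ a ∈ s, f a i := by
  classical
  induction s using Finset.induction_on with
  | empty => simp
  | insert a s ha ih => rw [Finset.sum_insert ha, Finset.sum_insert ha, PiLp.add_apply, ih]

/-- For the standard basis every signing has final sum of squared norm `d`. -/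
theorem basis_example (d : ℕ) :
    ∃ v : ℕ → EuclideanSpace ℝ (Fin d), (∀ i, ‖v i‖ ≤ 1) ∧
      ∀ ε : ℕ → ℝ, (∀ i, ε i = 1 ∨ ε i = -1) →
        ‖∑ i ∈ Finset.range d, ε i • v i‖ ^ 2 = d := by
  classical
  refine ⟨fun i => if h : i < d then EuclideanSpace.single ⟨i, h⟩ (1 : ℝ) else 0, ?_, ?_⟩
  · intro i
    by_cases h : i < d
    · simp [h]
    · simp [h]
  · intro ε hε
    have h1 : ∑ i ∈ Finset.range d,
        ε i • (if h : i < d then EuclideanSpace.single (⟨i, h⟩ : Fin d) (1 : ℝ) else 0)
        = ∑ j : Fin d, ε j • EuclideanSpace.single j (1 : ℝ) := by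
      rw [← Fin.sum_univ_eq_sum_range
        (fun i => ε i • (if h : i < d then EuclideanSpace.single (⟨i, h⟩ : Fin d) (1 : ℝ) else 0)) d]
      exact Finset.sum_congr rfl fun j _ => by simp
    rw [h1, EuclideanSpace.real_norm_sq_eq]
    have h2 : ∀ l : Fin d, (∑ j : Fin d, ε j • EuclideanSpace.single j (1 : ℝ)) l = ε l := by
      intro l
      rw [sum_apply_aux]
      simp [Finset.sum_ite_eq]
    have h3 : ∀ l : Fin d, (ε l) ^ 2 = 1 := by
      intro l
      rcases hε l with h | h <;> rw [h] <;> norm_num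
    simp only [h2, h3]
    simp

variable {E : Type*} [NormedAddCommGroup E] [InnerProductSpace ℝ E]

theorem inner_list_sum (x : E) (c : ℝ) : ∀ T : List E, (∀ y ∈ T, ⟪x, y⟫_ℝ = c) →
    ⟪x, T.sum⟫_ℝ = T.length * c
  | [], _ => by simp
  | y :: T, h => by
      rw [List.sum_cons, inner_add_right, h y (by simp),
        inner_list_sum x c T (fun z hz => h z (by simp [hz]))]
      simp only [List.length_cons]; push_cast; ring

/-- If all vectors of a list have squared norm `s` and any two at different places have inner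
product `c`, the squared norm of the sum of the list is `n s + n (n - 1) c`, `n` its length. -/
theorem norm_sq_sum_of_pairwise (s c : ℝ) : ∀ T : List E, (∀ x ∈ T, ‖x‖ ^ 2 = s) →
    T.Pairwise (fun x y => ⟪x, y⟫_ℝ = c) →
    ‖T.sum‖ ^ 2 = T.length * s + T.length * (T.length - 1) * c
  | [], _, _ => by simp
  | x :: T, hs, hp => by
      have hx : ‖x‖ ^ 2 = s := hs x (by simp)
      have hT := norm_sq_sum_of_pairwise s c T (fun y hy => hs y (by simp [hy]))
        (List.pairwise_cons.mp hp).2
      have hxy : ⟪x, T.sum⟫_ℝ = T.length * c := inner_list_sum x c T (List.pairwise_cons.mp hp).1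
      rw [List.sum_cons, norm_add_sq_real, hx, hxy, hT]
      simp only [List.length_cons]; push_cast; ring

theorem sum_range_mul_sub (c : ℝ) : ∀ m : ℕ,
    ∑ k ∈ Finset.range (m + 1), (k : ℝ) * (c - k)
      = c * (m * (m + 1) / 2) - m * (m + 1) * (2 * m + 1) / 6
  | 0 => by simp
  | m + 1 => by
      rw [Finset.sum_range_succ, sum_range_mul_sub c m]
      push_cast; ring

/-- The centred simplex: `d` vectors of the unit ball of `ℝ^d` with sum `0` all of whose
rearrangements have sum of squared norms of partial sums equal to `(d ^ 2 - 1) / 6`. -/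
theorem simplex_example (d : ℕ) (hd : 1 ≤ d) :
    ∃ L : List (EuclideanSpace ℝ (Fin d)), (∀ x ∈ L, ‖x‖ ≤ 1) ∧ L.sum = 0 ∧ L.length = d ∧
      ∀ L' : List (EuclideanSpace ℝ (Fin d)), L'.Perm L →
        ∑ k ∈ Finset.range (L.length + 1), ‖(L'.take k).sum‖ ^ 2 = ((d : ℝ) ^ 2 - 1) / 6 := by
  classical
  have hd0 : (d : ℝ) ≠ 0 := by
    have : (0 : ℝ) < d := by exact_mod_cast hd
    exact ne_of_gt this
  have hdpos : (0 : ℝ) < d := by exact_mod_cast hd
  set f : Fin d → EuclideanSpace ℝ (Fin d) := fun j =>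
    WithLp.toLp 2 (fun l : Fin d => (if l = j then (1 : ℝ) else 0) - 1 / d) with hf
  have hfl : ∀ j l, f j l = (if l = j then (1 : ℝ) else 0) - 1 / d := fun j l => rfl
  have hinner : ∀ i j, ⟪f i, f j⟫_ℝ = (if i = j then (1 : ℝ) else 0) - 1 / d := by
    intro i j
    rw [real_inner_pi]
    have h1 : ∀ l : Fin d, f i l * f j l
        = (if l = i then (1 : ℝ) else 0) * (if l = j then (1 : ℝ) else 0)
          - (1 / d) * (if l = i then (1 : ℝ) else 0) - (1 / d) * (if l = j then (1 : ℝ) else 0)
          + (1 / d) * (1 / d) := by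
      intro l; rw [hfl, hfl]; ring
    simp only [h1, Finset.sum_add_distrib, Finset.sum_sub_distrib, ← Finset.mul_sum]
    have h2 : ∑ l : Fin d, (if l = i then (1 : ℝ) else 0) * (if l = j then (1 : ℝ) else 0)
        = if i = j then (1 : ℝ) else 0 := by
      simp only [ite_mul, one_mul, zero_mul, Finset.sum_ite_eq', Finset.mem_univ, if_true]
    rw [h2]
    simp only [Finset.sum_ite_eq', Finset.mem_univ, if_true, Finset.sum_const, Finset.card_univ,
      Fintype.card_fin, nsmul_eq_mul, mul_one]
    field_simp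
    ring
  have hnorm : ∀ j, ‖f j‖ ^ 2 = 1 - 1 / d := by
    intro j
    rw [← real_inner_self_eq_norm_sq, hinner, if_pos rfl]
  have hle1 : ∀ j, ‖f j‖ ≤ 1 := by
    intro j
    have h1 := hnorm j
    have h2 : (0 : ℝ) < 1 / d := by positivity
    have h3 := norm_nonneg (f j)
    nlinarith
  set L : List (EuclideanSpace ℝ (Fin d)) := List.ofFn f with hL
  have hlen : L.length = d := by simp [hL]
  have hmem : ∀ x ∈ L, ∃ j, f j = x := fun x hx => List.mem_ofFn.mp hx
  have hpw : L.Pairwise (fun x y => ⟪x, y⟫_ℝ = -(1 / d)) := by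
    rw [hL, List.pairwise_ofFn]
    intro i j hij
    rw [hinner, if_neg (ne_of_lt hij)]
    ring
  refine ⟨L, ?_, ?_, hlen, ?_⟩
  · intro x hx
    obtain ⟨j, rfl⟩ := hmem x hx
    exact hle1 j
  · rw [hL, List.sum_ofFn]
    ext l
    rw [sum_apply_aux]
    simp only [hfl, Finset.sum_sub_distrib, PiLp.zero_apply]
    simp only [Finset.sum_ite_eq, Finset.mem_univ, if_true, Finset.sum_const, Finset.card_univ,
      Fintype.card_fin, nsmul_eq_mul]
    field_simp
    ring
  · intro L' hperm
    have hpw' : L'.Pairwise (fun x y => ⟪x, y⟫_ℝ = -(1 / d)) :=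
      (hperm.pairwise_iff (fun {x y} h => by rw [real_inner_comm]; exact h)).mpr hpw
    have hlen' : L'.length = d := by rw [hperm.length_eq, hlen]
    have hk : ∀ k ∈ Finset.range (L.length + 1),
        ‖(L'.take k).sum‖ ^ 2 = (k : ℝ) * (d - k) / d := by
      intro k hk
      have hkd : k ≤ d := by
        rw [hlen] at hk
        exact Nat.lt_succ_iff.mp (Finset.mem_range.mp hk)
      have h1 := norm_sq_sum_of_pairwise (1 - 1 / (d : ℝ)) (-(1 / d)) (L'.take k)
        (fun x hx => by
          obtain ⟨j, rfl⟩ := hmem x (hperm.mem_iff.mp (List.mem_of_mem_take hx))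
          exact hnorm j)
        (hpw'.sublist (List.take_sublist k L'))
      have h2 : (L'.take k).length = k := by
        rw [List.length_take, hlen']; exact Nat.min_eq_left hkd
      rw [h1, h2]
      field_simp
      ring
    rw [Finset.sum_congr rfl hk, ← Finset.sum_div, hlen, sum_range_mul_sub]
    field_simp
    ring

end Vale.Agent.Helper1.SharpExamples
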