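import Mathlib

/-!
# Helper lemmas for lower bounds on signed partial sums (problem P262)

`Forces T s L` says: starting from the vector `s`, every signing of the list `L` has an
initial segment whose signed sum, added to `s`, has squared norm at least `T`.
-/

namespace Vale.Agent.Helper1.SignForcing

open scoped InnerProductSpace

variable {E : Type*} [NormedAddCommGroup E]

/-- `Forces T s L`: starting from the vector `s`, every signing of the list `L` has an initial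
segment whose signed sum, added to `s`, has squared norm at least `T`. -/
def Forces (T : ℝ) : E → List E → Prop
  | s, [] => T ≤ ‖s‖ ^ 2
  | s, v :: L => T ≤ ‖s‖ ^ 2 ∨ (Forces T (s + v) L ∧ Forces T (s - v) L)

theorem forces_of_le {T : ℝ} {s : E} (h : T ≤ ‖s‖ ^ 2) : ∀ L : List E, Forces T s L
  | [] => h
  | _ :: _ => Or.inl h

theorem forces_neg {T : ℝ} : ∀ (L : List E) (s : E), Forces T s L → Forces T (-s) L
  | [], s, h => by simpa [Forces] using h
  | v :: L, s, h => by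
      rcases h with h | ⟨h1, h2⟩
      · exact Or.inl (by simpa using h)
      · refine Or.inr ⟨?_, ?_⟩
        · have := forces_neg L (s - v) h2
          rwa [neg_sub, ← neg_add_eq_sub] at this
        · have := forces_neg L (s + v) h1
          rwa [neg_add, ← sub_eq_add_neg] at this

variable [InnerProductSpace ℝ E]

theorem forces_sum {T : ℝ} : ∀ (L : List E) (s : E), Forces T s L →
    ∀ ε : ℕ → ℝ, (∀ i, ε i = 1 ∨ ε i = -1) →
      ∃ k, k ≤ L.length ∧ T ≤ ‖s + ∑ i ∈ Finset.range k, ε i • L.getD i 0‖ ^ 2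
  | [], s, h, ε, _ => ⟨0, le_refl _, by simpa [Forces] using h⟩
  | v :: L, s, h, ε, hε => by
      rcases h with h | ⟨h1, h2⟩
      · exact ⟨0, Nat.zero_le _, by simpa using h⟩
      · rcases hε 0 with h0 | h0
        · obtain ⟨k, hk, hk'⟩ := forces_sum L (s + v) h1 (fun i => ε (i + 1)) (fun i => hε (i + 1))
          refine ⟨k + 1, by simpa using hk, ?_⟩
          rw [Finset.sum_range_succ']
          simp only [List.getD_cons_succ, List.getD_cons_zero, h0, one_smul]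
          rw [show s + (∑ i ∈ Finset.range k, ε (i + 1) • L.getD i 0 + v)
            = s + v + ∑ i ∈ Finset.range k, ε (i + 1) • L.getD i 0 by abel]
          exact hk'
        · obtain ⟨k, hk, hk'⟩ := forces_sum L (s - v) h2 (fun i => ε (i + 1)) (fun i => hε (i + 1))
          refine ⟨k + 1, by simpa using hk, ?_⟩
          rw [Finset.sum_range_succ']
          simp only [List.getD_cons_succ, List.getD_cons_zero, h0, neg_smul, one_smul]
          rw [show s + (∑ i ∈ Finset.range k, ε (i + 1) • L.getD i 0 + -v)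
            = s - v + ∑ i ∈ Finset.range k, ε (i + 1) • L.getD i 0 by abel]
          exact hk'

theorem norm_add_sq_of_orth {a s : E} (h : ⟪a, s⟫_ℝ = 0) : ‖a + s‖ ^ 2 = ‖a‖ ^ 2 + ‖s‖ ^ 2 := by
  rw [norm_add_sq_real, h]; ring

theorem norm_sub_sq_of_orth {a s : E} (h : ⟪a, s⟫_ℝ = 0) : ‖a - s‖ ^ 2 = ‖a‖ ^ 2 + ‖s‖ ^ 2 := by
  rw [norm_sub_sq_real, h]; ring

theorem forces_add_orth {T : ℝ} (W : Submodule ℝ E) (a : E) (ha : ∀ w ∈ W, ⟪a, w⟫_ℝ = 0) :
    ∀ (L : List E) (s : E), s ∈ W → (∀ v ∈ L, v ∈ W) → Forces T s L →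
      Forces (T + ‖a‖ ^ 2) (a + s) L
  | [], s, hs, _, h => by
      have h' : T ≤ ‖s‖ ^ 2 := h
      show T + ‖a‖ ^ 2 ≤ ‖a + s‖ ^ 2
      rw [norm_add_sq_of_orth (ha s hs)]; linarith
  | v :: L, s, hs, hL, h => by
      rcases h with h | ⟨h1, h2⟩
      · refine Or.inl ?_
        rw [norm_add_sq_of_orth (ha s hs)]; linarith
      · have hv : v ∈ W := hL v (by simp)
        have hL' : ∀ u ∈ L, u ∈ W := fun u hu => hL u (by simp [hu])
        refine Or.inr ⟨?_, ?_⟩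
        · have := forces_add_orth W a ha L (s + v) (W.add_mem hs hv) hL' h1
          rwa [← add_assoc] at this
        · have := forces_add_orth W a ha L (s - v) (W.sub_mem hs hv) hL' h2
          rwa [← add_sub_assoc] at this

theorem forces_orth_list {T : ℝ} (W : Submodule ℝ E) (L' : List E) :
    ∀ (U : List E), (U.Pairwise fun x y => ⟪x, y⟫_ℝ = 0) →
      (∀ u ∈ U, ‖u‖ = 1 ∧ ∀ w ∈ W, ⟪u, w⟫_ℝ = 0) →
      ∀ a : E, (∀ w ∈ W, ⟪a, w⟫_ℝ = 0) → (∀ u ∈ U, ⟪a, u⟫_ℝ = 0) →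
        (∀ a' : E, (∀ w ∈ W, ⟪a', w⟫_ℝ = 0) → ‖a'‖ ^ 2 = ‖a‖ ^ 2 + U.length →
          Forces T a' L') →
        Forces T a (U ++ L')
  | [], _, _, a, haW, _, hfin => by
      simpa using hfin a haW (by simp)
  | u :: U, hpw, hU, a, haW, haU, hfin => by
      have hu : ‖u‖ = 1 ∧ ∀ w ∈ W, ⟪u, w⟫_ℝ = 0 := hU u (by simp)
      have hU' : ∀ x ∈ U, ‖x‖ = 1 ∧ ∀ w ∈ W, ⟪x, w⟫_ℝ = 0 := fun x hx => hU x (by simp [hx])
      have hpw' := (List.pairwise_cons.mp hpw).2
      have huU : ∀ x ∈ U, ⟪u, x⟫_ℝ = 0 := (List.pairwise_cons.mp hpw).1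
      have hau : ⟪a, u⟫_ℝ = 0 := haU u (by simp)
      have haU' : ∀ x ∈ U, ⟪a, x⟫_ℝ = 0 := fun x hx => haU x (by simp [hx])
      refine Or.inr ⟨?_, ?_⟩
      · refine forces_orth_list W L' U hpw' hU' (a + u) ?_ ?_ ?_
        · intro w hw; rw [inner_add_left, haW w hw, hu.2 w hw, add_zero]
        · intro x hx; rw [inner_add_left, haU' x hx, huU x hx, add_zero]
        · intro a' ha'W hn
          refine hfin a' ha'W ?_
          rw [hn, norm_add_sq_of_orth hau, hu.1]; simp; ring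
      · refine forces_orth_list W L' U hpw' hU' (a - u) ?_ ?_ ?_
        · intro w hw; rw [inner_sub_left, haW w hw, hu.2 w hw, sub_zero]
        · intro x hx; rw [inner_sub_left, haU' x hx, huU x hx, sub_zero]
        · intro a' ha'W hn
          refine hfin a' ha'W ?_
          rw [hn, norm_sub_sq_of_orth hau, hu.1]; simp; ring

/-! ### Integer certificates in three dimensions -/

/-- squared Euclidean norm of an integer triple -/
def nsq (p : ℤ × ℤ × ℤ) : ℤ := p.1 * p.1 + p.2.1 * p.2.1 + p.2.2 * p.2.2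

/-- coordinatewise sum of integer triples -/
def addT (p q : ℤ × ℤ × ℤ) : ℤ × ℤ × ℤ := (p.1 + q.1, p.2.1 + q.2.1, p.2.2 + q.2.2)

/-- coordinatewise difference of integer triples -/
def subT (p q : ℤ × ℤ × ℤ) : ℤ × ℤ × ℤ := (p.1 - q.1, p.2.1 - q.2.1, p.2.2 - q.2.2)

/-- Boolean integer version of `Forces`, with squared-norm threshold `Θ`. -/
def forcesInt (Θ : ℤ) : ℤ × ℤ × ℤ → List (ℤ × ℤ × ℤ) → Bool
  | s, [] => decide (Θ ≤ nsq s)
  | s, v :: L => decide (Θ ≤ nsq s) || (forcesInt Θ (addT s v) L && forcesInt Θ (subT s v) L)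

/-- all triples of the list have squared norm at most `B` -/
def allLe (B : ℤ) : List (ℤ × ℤ × ℤ) → Bool
  | [] => true
  | v :: L => decide (nsq v ≤ B) && allLe B L

/-- the vector `(p.1 • u0 + p.2.1 • u1 + p.2.2 • u2) / M` -/
noncomputable def emb (u0 u1 u2 : E) (M : ℝ) (p : ℤ × ℤ × ℤ) : E :=
  ((p.1 : ℝ) / M) • u0 + ((p.2.1 : ℝ) / M) • u1 + ((p.2.2 : ℝ) / M) • u2

theorem emb_add (u0 u1 u2 : E) (M : ℝ) (p q : ℤ × ℤ × ℤ) :
    emb u0 u1 u2 M (addT p q) = emb u0 u1 u2 M p + emb u0 u1 u2 M q := by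
  simp only [emb, addT, Int.cast_add, add_div, add_smul]
  abel

theorem emb_sub (u0 u1 u2 : E) (M : ℝ) (p q : ℤ × ℤ × ℤ) :
    emb u0 u1 u2 M (subT p q) = emb u0 u1 u2 M p - emb u0 u1 u2 M q := by
  simp only [emb, subT, Int.cast_sub, sub_div, sub_smul]
  abel

theorem emb_zero (u0 u1 u2 : E) (M : ℝ) : emb u0 u1 u2 M (0, 0, 0) = 0 := by
  simp [emb]

theorem norm_sq_emb {u0 u1 u2 : E} (h0 : ‖u0‖ = 1) (h1 : ‖u1‖ = 1) (h2 : ‖u2‖ = 1)
    (h01 : ⟪u0, u1⟫_ℝ = 0) (h02 : ⟪u0, u2⟫_ℝ = 0) (h12 : ⟪u1, u2⟫_ℝ = 0) (M : ℝ)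
    (p : ℤ × ℤ × ℤ) : ‖emb u0 u1 u2 M p‖ ^ 2 = (nsq p : ℝ) / M ^ 2 := by
  have h10 : ⟪u1, u0⟫_ℝ = 0 := by rw [real_inner_comm]; exact h01
  have h20 : ⟪u2, u0⟫_ℝ = 0 := by rw [real_inner_comm]; exact h02
  have h21 : ⟪u2, u1⟫_ℝ = 0 := by rw [real_inner_comm]; exact h12
  rw [← real_inner_self_eq_norm_sq]
  simp only [emb, inner_add_left, inner_add_right, inner_smul_left, inner_smul_right, h01, h02,
    h12, h10, h20, h21, real_inner_self_eq_norm_sq, h0, h1, h2, nsq]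
  simp only [RCLike.conj_to_real]
  push_cast
  ring

theorem emb_mem (u0 u1 u2 : E) (M : ℝ) (p : ℤ × ℤ × ℤ) :
    emb u0 u1 u2 M p ∈ Submodule.span ℝ ({u0, u1, u2} : Set E) := by
  have m0 : u0 ∈ Submodule.span ℝ ({u0, u1, u2} : Set E) := Submodule.subset_span (by simp)
  have m1 : u1 ∈ Submodule.span ℝ ({u0, u1, u2} : Set E) := Submodule.subset_span (by simp)
  have m2 : u2 ∈ Submodule.span ℝ ({u0, u1, u2} : Set E) := Submodule.subset_span (by simp)
  exact Submodule.add_mem _ (Submodule.add_mem _ (Submodule.smul_mem _ _ m0)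
    (Submodule.smul_mem _ _ m1)) (Submodule.smul_mem _ _ m2)

theorem forces_of_forcesInt {u0 u1 u2 : E} (h0 : ‖u0‖ = 1) (h1 : ‖u1‖ = 1) (h2 : ‖u2‖ = 1)
    (h01 : ⟪u0, u1⟫_ℝ = 0) (h02 : ⟪u0, u2⟫_ℝ = 0) (h12 : ⟪u1, u2⟫_ℝ = 0) (M : ℝ) (Θ : ℤ) :
    ∀ (L : List (ℤ × ℤ × ℤ)) (s : ℤ × ℤ × ℤ), forcesInt Θ s L = true →
      Forces ((Θ : ℝ) / M ^ 2) (emb u0 u1 u2 M s) (L.map (emb u0 u1 u2 M))
  | [], s, h => by
      have h' : Θ ≤ nsq s := by simpa [forcesInt] using h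
      show (Θ : ℝ) / M ^ 2 ≤ ‖emb u0 u1 u2 M s‖ ^ 2
      rw [norm_sq_emb h0 h1 h2 h01 h02 h12]
      exact div_le_div_of_nonneg_right (by exact_mod_cast h') (by positivity)
  | v :: L, s, h => by
      simp only [forcesInt, Bool.or_eq_true, Bool.and_eq_true, decide_eq_true_eq] at h
      rcases h with h | ⟨ha, hb⟩
      · refine Or.inl ?_
        rw [norm_sq_emb h0 h1 h2 h01 h02 h12]
        exact div_le_div_of_nonneg_right (by exact_mod_cast h) (by positivity)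
      · refine Or.inr ⟨?_, ?_⟩
        · have := forces_of_forcesInt h0 h1 h2 h01 h02 h12 M Θ L (addT s v) ha
          rwa [emb_add] at this
        · have := forces_of_forcesInt h0 h1 h2 h01 h02 h12 M Θ L (subT s v) hb
          rwa [emb_sub] at this

theorem norm_le_one_of_allLe {u0 u1 u2 : E} (h0 : ‖u0‖ = 1) (h1 : ‖u1‖ = 1) (h2 : ‖u2‖ = 1)
    (h01 : ⟪u0, u1⟫_ℝ = 0) (h02 : ⟪u0, u2⟫_ℝ = 0) (h12 : ⟪u1, u2⟫_ℝ = 0) (M : ℤ) (hM : 0 < M) :
    ∀ (L : List (ℤ × ℤ × ℤ)), allLe (M * M) L = true →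
      ∀ x ∈ L.map (emb u0 u1 u2 (M : ℝ)), ‖x‖ ≤ 1
  | [], _, x, hx => by simp at hx
  | v :: L, h, x, hx => by
      simp only [allLe, Bool.and_eq_true, decide_eq_true_eq] at h
      rcases List.mem_cons.mp hx with rfl | hx
      · have hsq := norm_sq_emb h0 h1 h2 h01 h02 h12 (M : ℝ) v
        have hMpos : (0 : ℝ) < (M : ℝ) := by exact_mod_cast hM
        have hle : (nsq v : ℝ) ≤ (M : ℝ) ^ 2 := by
          have : (nsq v : ℝ) ≤ ((M * M : ℤ) : ℝ) := by exact_mod_cast h.1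
          simpa [sq] using this
        have : ‖emb u0 u1 u2 (M : ℝ) v‖ ^ 2 ≤ 1 := by
          rw [hsq, div_le_one (by positivity)]; exact hle
        have hn := norm_nonneg (emb u0 u1 u2 (M : ℝ) v)
        nlinarith
      · exact norm_le_one_of_allLe h0 h1 h2 h01 h02 h12 M hM L h.2 x hx

end Vale.Agent.Helper1.SignForcing
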